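import Crest.Agent.X212.Cg28.Stm
import Crest.Agent.X212.Sym24.Hop

/-!
# X212 / Vtx52 (helper52): the connection of a vertex chart (`Cg28.VtxStmt`)
-/

set_option autoImplicit false
set_option linter.unusedSectionVars false

open Set Filter Topology Function Module Matrix
open scoped ContDiff Manifold Real
open Crest.Agent.R208 Crest.Agent.R208.FI
open Crest.Agent.R208.F hiding wd
open Crest.Agent.X212.Int54 hiding dt pr kap tp_pr pr_eq cAt_pr pm_pr kap_ne sigmaCompact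
open Crest.Agent.X212.Line51 hiding tp Uni th
open Crest.Agent.X212.Dr59 Crest.Agent.X212.Rod53 Crest.Agent.X212.Pj41 Crest.Agent.X212.Cg28
open Crest.Agent.X212.Num57 Crest.Agent.X212.Glue52

noncomputable section

namespace Crest.Agent.X212.Vtx52

/-! ### two complex numbers as a real matrix -/

section br

variable {A A' : Type*} [Ring A] [Ring A']

/-- two rotation blocks -/
def BR (a b : Fin 2 → A) : Matrix F4 F4 A := blockDiagonal fun j => !![a j, b j; -b j, a j]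

variable {a b c d : Fin 2 → A}

theorem BR_mul : BR a b * BR c d = BR (a * c - b * d) (a * d + b * c) := by
  rw [BR, BR, BR, ← blockDiagonal_mul]
  congr 1
  funext j
  ext r s
  fin_cases r <;> fin_cases s <;> simp [Matrix.mul_apply, sub_eq_add_neg, add_comm]

theorem BR_add : BR a b + BR c d = BR (a + c) (b + d) := by
  rw [BR, BR, BR, ← blockDiagonal_add]
  congr 1
  funext j
  ext r s
  fin_cases r <;> fin_cases s <;> simp [add_comm]

theorem BR_sub : BR a b - BR c d = BR (a - c) (b - d) := by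
  rw [BR, BR, BR, ← blockDiagonal_sub]
  congr 1
  funext j
  ext r s
  fin_cases r <;> fin_cases s <;> simp [sub_eq_add_neg, add_comm]

theorem BR_one : BR (1 : Fin 2 → A) 0 = 1 := by
  rw [BR, ← blockDiagonal_one]
  congr 1
  funext j
  ext r s
  fin_cases r <;> fin_cases s <;> simp

theorem BR_zero : BR (0 : Fin 2 → A) 0 = 0 := by
  rw [BR, ← blockDiagonal_zero]
  congr 1
  funext j
  ext r s
  fin_cases r <;> fin_cases s <;> simp

theorem BR_map {f : A → A'} (h0 : f 0 = 0) (hn : ∀ j, f (-b j) = -f (b j)) :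
    (BR a b).map f = BR (fun j => f (a j)) fun j => f (b j) := by
  rw [BR, BR, blockDiagonal_map _ _ h0]
  congr 1
  funext j
  ext r s
  fin_cases r <;> fin_cases s <;> simp [hn]

theorem BR_trace : (BR a b).trace = ∑ j, (a j + a j) := by
  rw [BR, trace_blockDiagonal]
  simp

theorem BR_ind {P : A → Prop} (h0 : P 0) (ha : ∀ j, P (a j)) (hb : ∀ j, P (b j))
    (hn : ∀ j, P (-b j)) (p q : F4) : P (BR a b p q) := by
  obtain ⟨r, j⟩ := p
  obtain ⟨s, k⟩ := q
  rw [BR, blockDiagonal_apply]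
  split_ifs
  · fin_cases r <;> fin_cases s
    exacts [ha j, hb j, hn j, ha j]
  · exact h0

theorem BR_ind0 {P : A → Prop} (h0 : P 0) (hb : ∀ j, P (b j)) (hn : ∀ j, P (-b j)) (p q : F4) :
    P (BR 0 b p q) := BR_ind h0 (fun _ => h0) hb hn p q

theorem BR_sum {V : Type*} [AddCommGroup V] [Module A V] (w : F4 → V) (j : Fin 2) :
    ∑ q, BR a b (0, j) q • w q = a j • w (0, j) + b j • w (1, j) ∧
      ∑ q, BR a b (1, j) q • w q = -b j • w (0, j) + a j • w (1, j) := by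
  simp [BR, Fintype.sum_prod_type, blockDiagonal_apply, ite_smul]

end br

section gen

variable {E : Type} [NormedAddCommGroup E] [NormedSpace ℝ E] [FiniteDimensional ℝ E]
  {H : Type} [TopologicalSpace H] {I : ModelWithCorners ℝ E H}
  {M : Type} [TopologicalSpace M] [ChartedSpace H M] [I.Boundaryless] [IsManifold I ∞ M]
  {F : Type} [NormedAddCommGroup F] [NormedSpace ℝ F] [FiniteDimensional ℝ F]
  {G : Type} [TopologicalSpace G] {K : ModelWithCorners ℝ F G}
  {Q : Type} [TopologicalSpace Q] [ChartedSpace G Q] [K.Boundaryless] [IsManifold K ∞ Q]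
  {U : Set M} {x : M} {g : Fin 2 → M → Ext E} {φ : Fin 2 → M → Circle}

theorem deg_neg {k : ℕ} {a : Ext E} (h : IsDeg k a) : IsDeg k (-a) := by simpa using h.smul (-1)

theorem co_BR (h : ∀ j, ∀ x ∈ U, SmAt I (g j) x ∧ IsDeg 1 (g j x)) : Co I U (BR 0 g) := by
  refine ⟨fun p q x hx => ?_, fun p q x hx => Sym24.inv1 ?_⟩
  · exact BR_ind0 (P := fun a => SmAt I a x) cAt_zero (fun j => (h j x hx).1)
      (fun j => CAt.neg (h j x hx).1) p q
  · exact BR_ind0 (P := fun a : M → Ext E => IsDeg 1 (a x)) (IsDeg.zero (E := E))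
      (fun j => (h j x hx).2) (fun j => deg_neg (h j x hx).2) p q

theorem ea_BR (a b : Fin 2 → M → Ext E) (x : M) :
    (BR a b).map (ea x) = BR (fun j => a j x) fun j => b j x := BR_map rfl fun _ => rfl

theorem md_BR (a b : Fin 2 → M → Ext E) : md I (BR a b) = BR (fun j => dM I (a j)) fun j => dM I (b j) :=
  BR_map dM_zero fun _ => dM_neg _

theorem c2_BR (h : ∀ j, IsDeg 1 (g j x)) :
    c2 I (BR 0 g) 1 x = (-2 : ℝ) • ∑ j, dM I (g j) x * dM I (g j) x := by
  have h1 : (fun j => g j x) * (fun j => g j x) = 0 := funext fun j => Sym24.sq1 (h j)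
  rw [c2_at, mp_one, Matrix.one_mul, md_BR, ea_BR, ea_BR, cuP, BR_mul, h1, BR_add, BR_mul, BR_trace,
    Finset.smul_sum]
  refine Finset.sum_congr rfl fun j _ => ?_
  simp only [Pi.zero_apply, dM_zero, Pi.sub_apply, Pi.mul_apply, Pi.add_apply, mul_zero, zero_mul,
    add_zero, sub_zero, zero_sub]
  module

theorem df_polar {r : M → ℝ} {u : M → Circle} (hr : FSm I r x) (hu : CSm I u x) :
    df I (fun y => ((r y : ℂ) * u y).re) x = (u x : ℂ).re • df I r x - (r x * (u x : ℂ).im) • ang I u x ∧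
    df I (fun y => ((r y : ℂ) * u y).im) x = (u x : ℂ).im • df I r x + (r x * (u x : ℂ).re) • ang I u x := by
  have h0 : FSm I (fun y => (u y : ℂ)) x := (contMDiff_coe _).comp x hu
  have h1 : FSm I (fun y => (r y : ℂ) * u y) x := FSm.mul' hr.ofReal h0
  have h2 : ∀ v, dc I (fun y => (r y : ℂ) * u y) x v =
      (mf I 𝓘(ℝ, ℝ) r x v : ℝ) * u x + r x * (Complex.I * u x * tl I (sc u) x v) := fun v => by
    rw [← Orx52.dc_circle hu, ← dc_ofReal hr]
    exact dc_mul hr.ofReal h0 v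
  constructor
  · rw [df, df, ang, Line51.th, ← map_smul, ← map_smul, ← map_sub]
    refine congrArg io (LinearMap.ext fun v => (mf_re (md_of h1) v).trans ?_)
    rw [h2]
    simp
    ring
  · rw [df, df, ang, Line51.th, ← map_smul, ← map_smul, ← map_add]
    refine congrArg io (LinearMap.ext fun v => (mf_im (md_of h1) v).trans ?_)
    rw [h2]
    simp
    ring

/-- the rotation by the angles `φ` -/
def rot (φ : Fin 2 → M → Circle) (ε : ℝ) (x : M) : Matrix F4 F4 ℝ :=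
  BR (fun j => (φ j x : ℂ).re) fun j => ε * (φ j x : ℂ).im

theorem sq_add (u : Circle) : (u : ℂ).re * (u : ℂ).re + (u : ℂ).im * (u : ℂ).im = 1 := by
  rw [← Complex.normSq_apply, Circle.normSq_coe]

theorem rot_mul {ε : ℝ} (h : ε * ε = 1) (x : M) : rot φ ε x * rot φ (-ε) x = 1 := by
  rw [rot, rot, BR_mul, ← BR_one]
  congr 1 <;> funext j <;> simp only [Pi.sub_apply, Pi.mul_apply, Pi.add_apply, Pi.one_apply,
    Pi.zero_apply]
  · linear_combination sq_add (φ j x) + (φ j x : ℂ).im ^ 2 * h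
  · ring

theorem sm_re {u : M → Circle} (h : CSm I u x) : FSm I (fun y => (u y : ℂ).re) x :=
  Complex.reCLM.contDiff.contDiffAt.comp_contMDiffAt ((contMDiff_coe _).comp x h)

theorem sm_im {u : M → Circle} (h : CSm I u x) (ε : ℝ) : FSm I (fun y => ε * (u y : ℂ).im) x :=
  FSm.mul' contMDiffAt_const
    (Complex.imCLM.contDiff.contDiffAt.comp_contMDiffAt ((contMDiff_coe _).comp x h))

theorem rot_eq (ε : ℝ) (p q : F4) : (fun y => rot φ ε y p q) =
    BR (fun j y => (φ j y : ℂ).re) (fun j y => ε * (φ j y : ℂ).im) p q := funext fun y =>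
  (congrFun (congrFun (BR_map (f := fun a : M → ℝ => a y) (a := fun j y => (φ j y : ℂ).re)
    (b := fun j y => ε * (φ j y : ℂ).im) rfl fun _ => rfl) p) q).symm

theorem sm_rot (h : ∀ j, CSm I (φ j) x) (ε : ℝ) (p q : F4) : FSm I (fun y => rot φ ε y p q) x := by
  rw [rot_eq]
  exact BR_ind (P := fun a => FSm I a x) contMDiffAt_const (fun j => sm_re (h j))
    (fun j => sm_im (h j) ε) (fun j => (sm_im (h j) ε).neg) p q

theorem fz_rot (ε : ℝ) : fz E (rot φ ε) =
    BR (fun j => fn E fun y => (φ j y : ℂ).re) fun j => fn E fun y => ε * (φ j y : ℂ).im := by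
  rw [← BR_map (f := fn E) (funext fun _ => map_zero _) fun _ => funext fun _ => map_neg _ _]
  ext p q y
  exact congrArg (algebraMap ℝ _) (congrFun (rot_eq ε p q) y)

theorem itw_rot (h : ∀ j, ∀ x ∈ U, CSm I (φ j) x) :
    Itw I U (BR 0 g) (BR 0 (g - fun j => ang I (φ j))) (fz E (rot φ 1)) := by
  refine itw_of (fz_ms' fun p q x hx => sm_rot (fun j => h j x hx) 1 p q) (fz_ev' _) fun x hx => ?_
  rw [fz_rot, md_BR, ea_BR, ea_BR, ea_BR, ea_BR, BR_mul, BR_mul, BR_add, BR_sub, ← BR_zero]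
  have k := fun j => df_polar (r := fun _ => 1) contMDiffAt_const (h j x hx)
  simp only [Complex.ofReal_one, one_mul, df_eq_zero (c := 1) EventuallyEq.rfl, smul_zero, zero_sub,
    zero_add] at k
  congr 1 <;> funext j <;> simp only [Pi.sub_apply, Pi.mul_apply, Pi.add_apply, Pi.zero_apply,
    one_mul, Dr59.fn, ← Algebra.commutes, ← Algebra.smul_def]
  · rw [show dM I (fn E fun y => (φ j y : ℂ).re) x = _ from dM_fn ((sm_re (h j x hx)).mdifferentiableAt ne0),
      (k j).1]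
    module
  · rw [show dM I (fn E fun y => (φ j y : ℂ).im) x = _ from dM_fn (by
      simpa using (sm_im (h j x hx) 1).mdifferentiableAt ne0), (k j).2]
    module

theorem bm_BR {pr : M → Q} (h : ∀ j, Bm I K pr (g j) x) : BM I K pr (BR 0 g) x :=
  BR_ind0 (P := fun a => Bm I K pr a x) bm_zero h fun j => (h j).neg

theorem bs_of {o : Type} [Fintype o] {pr : M → Q} {σ : o → M → Ext E} {S : Sy E M F4}
    {W : F4 → o → M → ℝ} {W' : o → F4 → M → ℝ} (h : ∀ a k, Bf K pr (W a k) x)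
    (h' : ∀ k a, Bf K pr (W' k a) x) (e : ∀ᶠ y in 𝓝 x, ∀ a, S.th a y = ∑ k, W a k y • σ k y)
    (e' : ∀ᶠ y in 𝓝 x, ∀ k, σ k y = ∑ a, W' k a y • S.th a y)
    (t : ∀ᶠ y in 𝓝 x, ∀ a b, tr S S a b y = (1 : Matrix F4 F4 (M → Ext E)) a b y) : BS K pr σ S x := by
  refine ⟨⟨W, h, e.mono fun y hy a v => by simp only [hy a, e1_sum, e1_smul]⟩, fun k a =>
    (h' k a).congr ?_⟩
  filter_upwards [e', t] with y h1 h2
  have h3 : ∀ b, e1 (S.th b y) (S.e a y) = (1 : Matrix F4 F4 ℝ) b a := fun b => by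
    have := h2 b a
    rw [← fz_one'] at this
    exact (algebraMap ℝ (Ext E)).injective this
  simp [h1 k, e1_sum, e1_smul, h3, Matrix.one_apply]

/-- real coordinates -/
def L4 : (ℂ × ℂ) ≃ₗ[ℝ] (F4 → ℝ) where
  toFun z p := ![(![z.1, z.2] p.2).re, (![z.1, z.2] p.2).im] p.1
  invFun w := (⟨w (0, 0), w (1, 0)⟩, ⟨w (0, 1), w (1, 1)⟩)
  map_add' z w := by
    funext ⟨r, j⟩
    fin_cases r <;> fin_cases j <;> simp
  map_smul' c z := by
    funext ⟨r, j⟩
    fin_cases r <;> fin_cases j <;> simp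
  left_inv _ := rfl
  right_inv w := by
    funext ⟨r, j⟩
    fin_cases r <;> fin_cases j <;> rfl

variable (I) in
/-- the coordinate frame of a chart -/
def St (z : M → ℂ × ℂ) : Sy E M F4 := (Sy.std (Basis.ofEquivFun L4)).pb I IV z

variable {z : M → ℂ × ℂ}

theorem St_on (h : ∀ x ∈ U, IsLocalDiffeomorphAt I IV ∞ z x) : (St I z).On I U :=
  (std_on _).pb h (mapsTo_univ _ _)

theorem tr_St (h : ∀ x ∈ U, IsLocalDiffeomorphAt I IV ∞ z x) : EqO U (tr (St I z) (St I z)) 1 := by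
  have := tr_pb (S := Sy.std (Basis.ofEquivFun L4)) (S' := Sy.std (Basis.ofEquivFun L4)) h
  rwa [tr_std, mp_one] at this

theorem St_th (h : MDifferentiableAt I IV z x) (p : F4) :
    (St I z).th p x = df I (fun y => L4 (z y) p) x := by
  let l : (ℂ × ℂ) →L[ℝ] ℝ := LinearMap.toContinuousLinearMap ((Basis.ofEquivFun L4).coord p)
  refine Eq.trans ?_ (pm_df h l.mdifferentiableAt)
  refine pm_congr_right ?_
  rw [df, mf_eq_fderiv, l.fderiv]
  rfl

variable (I) in
/-- the polar frame -/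
def Pol (z : M → ℂ × ℂ) (φ : Fin 2 → M → Circle) : Sy E M F4 := (St I z).chg (rot φ 1) (rot φ (-1))

theorem Pol_th {r : Fin 2 → M → ℝ} (h : MDifferentiableAt I IV z x) (j : Fin 2) (hr : FSm I (r j) x)
    (hφ : CSm I (φ j) x) (e : ∀ᶠ y in 𝓝 x, ![(z y).1, (z y).2] j = r j y * φ j y) :
    (Pol I z φ).th (0, j) x = df I (r j) x ∧ (Pol I z φ).th (1, j) x = r j x • ang I (φ j) x := by
  have k := BR_sum (a := fun j => (φ j x : ℂ).re) (b := fun j => 1 * (φ j x : ℂ).im)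
    (fun q => (St I z).th q x) j
  have h0 := (St_th h (0, j)).trans ((Orx52.df_congr (e.mono fun y hy => congrArg Complex.re hy)).trans
    (df_polar hr hφ).1)
  have h1 := (St_th h (1, j)).trans ((Orx52.df_congr (e.mono fun y hy => congrArg Complex.im hy)).trans
    (df_polar hr hφ).2)
  rw [h0, h1] at k
  have s := sq_add (φ j x)
  have e : ∀ p, (Pol I z φ).th p x = ∑ q, rot φ 1 x p q • (St I z).th q x := fun p => by
    simp only [Pol, Sy.chg, Finset.sum_apply, Pi.smul_apply']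
  refine ⟨(e _).trans (k.1.trans ?_), (e _).trans (k.2.trans ?_)⟩
  · linear_combination (norm := module) s • df I (r j) x
  · linear_combination (norm := module) (r j x * s) • ang I (φ j) x

theorem eqv_Pol (hU : IsOpen U) (h : ∀ x ∈ U, IsLocalDiffeomorphAt I IV ∞ z x)
    (hg : ∀ j, ∀ x ∈ U, SmAt I (g j) x ∧ IsDeg 1 (g j x)) (hφ : ∀ j, ∀ x ∈ U, CSm I (φ j) x) :
    Eqv I U (St I z) (BR 0 g) (Pol I z φ) (BR 0 (g - fun j => ang I (φ j))) :=
  (tn_one hU (St_on h) (co_BR hg) (tr_St h)).chg hU (tr_St h)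
    (co_BR fun j x hx => ⟨(hg j x hx).1.sub (smAt_ang (hφ j x hx)),
      by
        simpa only [Pi.sub_apply, sub_eq_add_neg] using
          (hg j x hx).2.add (deg_neg (dg_ang (I := I) (U := univ) (φ j) x trivial))⟩) (itw_rot hφ)
    (fun p q x hx => sm_rot (fun j => hφ j x hx) _ p q)
    (fun p q x hx => sm_rot (fun j => hφ j x hx) _ p q) (fun x _ => rot_mul (one_mul 1) x)
    fun x _ => by simpa using rot_mul (φ := φ) (ε := -1) (by norm_num) x

theorem tr_Pol (h : ∀ x ∈ U, IsLocalDiffeomorphAt I IV ∞ z x) :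
    EqO U (tr (Pol I z φ) (Pol I z φ)) 1 := by
  rw [Pol, tr_chg, tr_chg']
  refine eqO_trans (eqO_mul eqO_rfl (eqO_mul (tr_St h) eqO_rfl)) ?_
  rw [Matrix.one_mul, ← fz_mul', ← fz_one']
  exact fz_congr' fun x _ => rot_mul (one_mul 1) x

theorem df_hyp {r s t y : M → ℝ} {c : ℝ} (hr : FSm I r x) (hs : FSm I s x)
    (et : ∀ᶠ w in 𝓝 x, t w = c + (r w ^ 2 - s w ^ 2)) (ey : ∀ᶠ w in 𝓝 x, y w = 2 * r w * s w) :
    df I t x = (2 * r x) • df I r x - (2 * s x) • df I s x ∧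
      df I y x = (2 * s x) • df I r x + (2 * r x) • df I s x := by
  constructor
  · rw [Orx52.df_congr (g := (fun _ => c) + ((fun w => r w * r w) - fun w => s w * s w))
      (et.mono fun w hw => by rw [hw, sq, sq]; rfl), df_add
      (g := (fun w => r w * r w) - fun w => s w * s w) contMDiffAt_const
      ((hr.mul' hr).sub (hs.mul' hs)), df_sub (hr.mul' hr) (hs.mul' hs), Orx52.df_mul hr hr,
      Orx52.df_mul hs hs, df_eq_zero (c := c) EventuallyEq.rfl]
    module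
  · rw [Orx52.df_congr (g := fun w => (r + r) w * s w) (ey.mono fun w hw => by rw [hw, two_mul]; rfl),
      Orx52.df_mul (hr.add hr) hs, df_add hr hr, Pi.add_apply]
    module

theorem bf_rad {pr : M → Q} {r s t y : M → ℝ} (ht : Bf K pr t x) (hy : Bf K pr y x) (h0 : 0 < r x)
    (e : ∀ᶠ w in 𝓝 x, 0 ≤ r w ∧ t w = r w ^ 2 - s w ^ 2 ∧ y w = 2 * r w * s w) : Bf K pr r x := by
  have k : ∀ {r s : ℝ}, √((r ^ 2 - s ^ 2) ^ 2 + (2 * r * s) ^ 2) = r ^ 2 + s ^ 2 := by
    intro r s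
    rw [← Real.sqrt_sq (add_nonneg (sq_nonneg r) (sq_nonneg s))]
    congr 1
    ring
  have k' : ∀ {r s : ℝ}, (r ^ 2 - s ^ 2 + (r ^ 2 + s ^ 2)) / 2 = r ^ 2 := by
    intro r s
    ring
  obtain ⟨-, e1, e2⟩ := e.self_of_nhds
  refine (ht.comp₂ hy (Φ := fun p => √((p.1 + √(p.1 ^ 2 + p.2 ^ 2)) / 2)) ?_).congr ?_
  · refine ContDiffAt.sqrt ((contDiffAt_fst.add (ContDiffAt.sqrt (by fun_prop) ?_)).div_const 2) ?_
    · rw [e1, e2]
      nlinarith [sq_pos_of_pos (add_pos_of_pos_of_nonneg (sq_pos_of_pos h0) (sq_nonneg (s x)))]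
    · rw [e1, e2, k, k']
      positivity
  · filter_upwards [e] with w hw
    rw [hw.2.1, hw.2.2, k, k', Real.sqrt_sq hw.1]

end gen

theorem vtx : VtxStmt := by
  intro B L c i h1 h2 e β h F
  have hu := c.uni h1 h2
  have ha : c.t (i - 1) ≠ 0 := (Int.cast_pos.2 (c.pos _)).ne'
  have hb : c.t i ≠ 0 := (Int.cast_pos.2 (c.pos _)).ne'
  set a := c.a (i - 1) with ea
  set b := c.a i with eb
  let z : B.X c → ℂ × ℂ := (B.T.vtx c.v hu i).symm
  have hU : IsOpen (B.vu c (c.jv i)) := Bs.isOpen_vu isOpen_interior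
  have hz : ∀ x ∈ B.vu c (c.jv i), z x ∈ Uv c.v a b i ∧ B.T.vtx c.v hu i (z x) = x ∧
      IsLocalDiffeomorphAt (𝓡 4) IV ∞ z x := fun x hx => by
    obtain ⟨w, hw, rfl⟩ := B.T.mem_vtx hu hx.1 (.inr hx.2)
    have k := (B.T.vtx c.v hu i).map_source hw
    exact ⟨(B.T.vtx c.v hu i).map_target k, (B.T.vtx c.v hu i).right_inv k, ld_pd _ k⟩
  let g : Fin 2 → B.X c → Ext E4 := ![-(c.t (i - 1))⁻¹ • β, (c.t i)⁻¹ • β]
  have hg : ∀ j, ∀ x ∈ B.vu c (c.jv i), SmAt (𝓡 4) (g j) x ∧ IsDeg 1 (g j x) := fun j x hx => by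
    fin_cases j <;> exact ⟨(F.pot2 x hx).1.smul _, (F.pot2 x hx).2.1.smul _⟩
  have ld := fun x hx => (hz x hx).2.2
  refine ⟨St (𝓡 4) z, BR 0 g, tn_one hU (St_on ld) (co_BR hg) (tr_St ld), fun x hx => ?_,
    fun x hx ho hb' => ?_⟩
  · rw [c2_congr (fun _ _ => .rfl) fun p q => tr_St ld p q x hx, c2_BR fun j => (hg j x hx).2,
      Fin.sum_univ_two]
    simp only [g, Matrix.cons_val_zero, Matrix.cons_val_one]
    rw [dM_smul ne0 _ (F.pot2 x hx).1, dM_smul ne0 _ (F.pot2 x hx).1, (F.pot2 x hx).2.2,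
      smul_mul_smul_comm, smul_mul_smul_comm, Pi.mul_apply]
    module
  let φ : Fin 2 → B.X c → Circle := ![chi B.T c.v (dual a b 1 0), chi B.T c.v (dual a b 0 1)]
  let r : Fin 2 → B.X c → ℝ := fun j y => ‖![(z y).1, (z y).2] j‖
  have hW : IsOpen (B.vu c (c.jv i) ∩ off B.T c.v) := hU.inter isOpen_off
  have ev := hW.mem_nhds ⟨hx, ho⟩
  have hφ : ∀ j, ∀ y ∈ B.vu c (c.jv i) ∩ off B.T c.v, CSm (𝓡 4) (φ j) y := fun j y hy => by
    fin_cases j <;> exact csm_off hy.1.1 hy.2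
  have ne : ∀ y ∈ B.vu c (c.jv i) ∩ off B.T c.v, (z y).1 ≠ 0 ∧ (z y).2 ≠ 0 := fun y hy =>
    (vtx_mem_off hu (hz y hy.1).1).1 ((hz y hy.1).2.1.symm ▸ hy.2)
  have r0 : ∀ j, ∀ y ∈ B.vu c (c.jv i) ∩ off B.T c.v, 0 < r j y := fun j y hy => by
    fin_cases j
    exacts [norm_pos_iff.2 (ne y hy).1, norm_pos_iff.2 (ne y hy).2]
  have hr : ∀ j, ∀ y ∈ B.vu c (c.jv i) ∩ off B.T c.v, FSm (𝓡 4) (r j) y := fun j y hy => by
    have k := (ld y hy.1).contMDiffAt
    fin_cases j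
    exacts [((contDiffAt_norm_c (ne y hy).1).comp (z y) contDiffAt_fst).comp_contMDiffAt k,
      ((contDiffAt_norm_c (ne y hy).2).comp (z y) contDiffAt_snd).comp_contMDiffAt k]
  have pol : ∀ j, ∀ y ∈ B.vu c (c.jv i) ∩ off B.T c.v, ![(z y).1, (z y).2] j = r j y * φ j y :=
    fun j y hy => by
      have k := fun η => chi_vtx (T := B.T) (v := c.v) (η := η) (c := i) hu (ne y hy).1 (ne y hy).2
      simp only [(hz y hy.1).2.1] at k
      fin_cases j <;> simp [r, φ, k, dual_left hu, dual_right hu, norm_mul_dir]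
  have tv : ∀ y ∈ B.vu c (c.jv i), B.tm c y = i + (r 0 y ^ 2 - r 1 y ^ 2) ∧
      B.T.yy c.v y = 2 * r 0 y * r 1 y := fun y hy => by
    have k1 := B.T.time_vtx hu (hz y hy).1
    have k2 := B.T.yy_vtx hu (hz y hy).1
    rw [(hz y hy).2.1] at k1 k2
    exact ⟨k1, k2⟩
  have th := fun j y (hy : y ∈ B.vu c (c.jv i) ∩ off B.T c.v) => Pol_th (φ := φ) (r := r)
    ((ld y hy.1).mdifferentiableAt ne0) j (hr j y hy) (hφ j y hy)
    (eventually_of_mem (hW.mem_nhds hy) (pol j))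
  have dd := fun y (hy : y ∈ B.vu c (c.jv i) ∩ off B.T c.v) => df_hyp (hr 0 y hy) (hr 1 y hy)
    (eventually_of_mem (hU.mem_nhds hy.1) fun w hw => (tv w hw).1)
    (eventually_of_mem (hU.mem_nhds hy.1) fun w hw => (tv w hw).2)
  have b0 : Bf KQ (B.pr c) (r 0) x := bf_rad (s := r 1) (Bs.bf_tm.sub (bf_const i)) Bs.bf_yy
    (r0 0 x ⟨hx, ho⟩) (eventually_of_mem ev fun w hw =>
      ⟨norm_nonneg _, by rw [(tv w hw.1).1, add_sub_cancel_left], (tv w hw.1).2⟩)
  have b1 : Bf KQ (B.pr c) (r 1) x := bf_rad (s := r 0) ((bf_const i).sub Bs.bf_tm) Bs.bf_yy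
    (r0 1 x ⟨hx, ho⟩) (eventually_of_mem ev fun w hw =>
      ⟨norm_nonneg _, by rw [(tv w hw.1).1]; ring, by rw [(tv w hw.1).2]; ring⟩)
  have sq : (dt a b : ℝ) * dt a b = 1 := by exact_mod_cast hu.sq
  have om : ∀ y ∈ B.vu c (c.jv i) ∩ off B.T c.v,
      B.om c 0 y = (a.1 : ℝ) • ang (𝓡 4) (φ 0) y + (b.1 : ℝ) • ang (𝓡 4) (φ 1) y ∧
      B.om c 1 y = (a.2 : ℝ) • ang (𝓡 4) (φ 0) y + (b.2 : ℝ) • ang (𝓡 4) (φ 1) y := fun y hy => by
    simp only [φ, Bs.om, Matrix.cons_val_zero, Matrix.cons_val_one,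
      ang_chi (η := dual _ _ _ _) hy.1.1 hy.2]
    simp only [dual, dt] at sq ⊢
    push_cast at sq ⊢
    constructor
    · linear_combination (norm := module) -sq • ang (𝓡 4) (chi B.T c.v (1, 0)) y
    · linear_combination (norm := module) -sq • ang (𝓡 4) (chi B.T c.v (0, 1)) y
  have D0 : 2 * (r 0 x * r 0 x + r 1 x * r 1 x) ≠ 0 := by
    have := r0 0 x ⟨hx, ho⟩
    positivity
  have bD := (bf_const 2).mul ((b0.mul b0).add (b1.mul b1))
  refine ⟨Pol (𝓡 4) z φ, BR 0 (g - fun j => ang (𝓡 4) (φ j)), bs_of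
    (W := fun p k y => ![![![0, 0, r 0 y / (2 * (r 0 y * r 0 y + r 1 y * r 1 y)),
        r 1 y / (2 * (r 0 y * r 0 y + r 1 y * r 1 y))],
      ![0, 0, -r 1 y / (2 * (r 0 y * r 0 y + r 1 y * r 1 y)), r 0 y / (2 * (r 0 y * r 0 y + r 1 y * r 1 y))]],
      ![![r 0 y * (dual a b 1 0).1, r 0 y * (dual a b 1 0).2, 0, 0],
        ![r 1 y * (dual a b 0 1).1, r 1 y * (dual a b 0 1).2, 0, 0]]] p.1 p.2 k)
    (W' := fun k p y => ![![![0, 0], ![a.1 / r 0 y, b.1 / r 1 y]], ![![0, 0], ![a.2 / r 0 y, b.2 / r 1 y]],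
      ![![2 * r 0 y, -(2 * r 1 y)], ![0, 0]], ![![2 * r 1 y, 2 * r 0 y], ![0, 0]]] k p.1 p.2)
    ?_ ?_ (eventually_of_mem ev fun y hy => ?_) (eventually_of_mem ev fun y hy => ?_)
    (eventually_of_mem (hU.mem_nhds hx) fun y hy p q => tr_Pol ld p q y hy), bm_BR fun j => ?_,
    (eqv_Pol hW (fun y hy => ld y hy.1) (fun j y hy => hg j y hy.1) hφ).lc ev⟩
  · rintro ⟨s, j⟩ k
    fin_cases s <;> fin_cases j <;> fin_cases k
    exacts [bf_const 0, bf_const 0, b0.div bD D0, b1.div bD D0, bf_const 0, bf_const 0, b1.neg.div bD D0,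
      b0.div bD D0, b0.mul (bf_const _), b0.mul (bf_const _), bf_const 0, bf_const 0,
      b1.mul (bf_const _), b1.mul (bf_const _), bf_const 0, bf_const 0]
  · rintro k ⟨s, j⟩
    have c0 := fun t : ℝ => (bf_const t).div b0 (r0 0 x ⟨hx, ho⟩).ne'
    have c1 := fun t : ℝ => (bf_const t).div b1 (r0 1 x ⟨hx, ho⟩).ne'
    fin_cases k <;> fin_cases s <;> fin_cases j
    exacts [bf_const 0, bf_const 0, c0 _, c1 _, bf_const 0, bf_const 0, c0 _, c1 _,
      (bf_const 2).mul b0, ((bf_const 2).mul b1).neg, bf_const 0, bf_const 0, (bf_const 2).mul b1,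
      (bf_const 2).mul b0, bf_const 0, bf_const 0]
  · rintro ⟨s, j⟩
    have p0 := r0 0 y hy
    have p1 := r0 1 y hy
    fin_cases s <;> fin_cases j
    · refine (th 0 y hy).1.trans ?_
      simp [Fin.sum_univ_four, Bs.om, (dd y hy).1, (dd y hy).2]
      match_scalars <;> field_simp <;> ring
    · refine (th 1 y hy).1.trans ?_
      simp [Fin.sum_univ_four, Bs.om, (dd y hy).1, (dd y hy).2]
      match_scalars <;> field_simp <;> ring
    · refine (th 0 y hy).2.trans ?_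
      simp [Fin.sum_univ_four, Bs.om, φ, ang_chi (η := dual _ _ _ _) hy.1.1 hy.2, smul_smul]
    · refine (th 1 y hy).2.trans ?_
      simp [Fin.sum_univ_four, Bs.om, φ, ang_chi (η := dual _ _ _ _) hy.1.1 hy.2, smul_smul]
  · intro k
    have p0 := (r0 0 y hy).ne'
    have p1 := (r0 1 y hy).ne'
    rw [Fintype.sum_prod_type, Fin.sum_univ_two, Fin.sum_univ_two, Fin.sum_univ_two, (th 0 y hy).1,
      (th 0 y hy).2, (th 1 y hy).1, (th 1 y hy).2]
    fin_cases k
    · refine (om y hy).1.trans ?_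
      simp [smul_smul, p0, p1]
    · refine (om y hy).2.trans ?_
      simp [smul_smul, p0, p1]
    · refine (dd y hy).1.trans ?_
      simp [sub_eq_add_neg]
    · refine (dd y hy).2.trans ?_
      simp
  · have bh : Bf KQ (B.pr c) (fun y => h (B.tm c y)) x := Bs.bf_tm.comp F.sm.contDiffAt
    have ev' := inter_mem ev ((Bs.isCompact_bx _ _ _).isClosed.isOpen_compl.mem_nhds hb')
    fin_cases j
    · refine (Bm.fsmul ((bh.sub (bf_const 1)).mul (bf_const (c.t (i - 1))⁻¹)) (Bs.bm_th hx.1 ho)).congr ?_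
      filter_upwards [ev'] with y hy
      simp only [g, φ, Fin.zero_eta, Pi.sub_apply, Matrix.cons_val_zero, Pi.smul_apply, Pi.smul_apply',
        F.far y hy.1.1.1 hy.1.2 hy.2]
      match_scalars <;> field_simp <;> ring
    · refine (Bm.fsmul (bh.neg.mul (bf_const (c.t i)⁻¹)) (Bs.bm_th hx.1 ho)).congr ?_
      filter_upwards [ev'] with y hy
      have k := (om y hy.1).2
      simp only [φ, Bs.om, Matrix.cons_val_zero, Matrix.cons_val_one] at k
      simp only [g, φ, Fin.mk_one, Pi.sub_apply, Matrix.cons_val_zero, Matrix.cons_val_one, Pi.smul_apply,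
        Pi.smul_apply', F.far y hy.1.1.1 hy.1.2 hy.2, k]
      match_scalars <;> field_simp <;> simp [Ch.t] <;> ring

end Crest.Agent.X212.Vtx52
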